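import Vale.Agent.P069.NotAUC

namespace Vale.Agent.Results.P069.AMUCnotAUC

open Vale.Agent.P069

theorem result : ∃ (X : Type) (_ : NormedAddCommGroup X) (_ : NormedSpace ℝ X),
    CompleteSpace X ∧ ¬ FiniteDimensional ℝ X ∧
      Function.Surjective (NormedSpace.inclusionInDoubleDual ℝ X) ∧
      AMUCRenormable X ∧ ¬ AUCRenormable X :=
  ⟨X, inferInstance, inferInstance, inferInstance, not_finiteDimensional,
    surjective_inclusion_X, amucRenormable, not_aucRenormable⟩

end Vale.Agent.Results.P069.AMUCnotAUC
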